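import Vale.Agent.P354YO.Sh

/-!
The derivative of the maps sh, and the Kerr metric on the rotated fields.
-/

open scoped ContDiff
open Set Filter Topology

noncomputable section

namespace Vale.Agent.P354TF

open Vale.Agent.P354n (R4)
open Vale.Agent.P354I (Sg)
open Vale.Agent.P354R (Del)
open Vale.Agent.P354XE
open Vale.Agent.P354XA
open Vale.Agent.P354YO
open Vale.Agent.P354YI (ev_dif at_fd)

variable {A B : ℝ → ℝ} {p v w : R4} {M a : ℝ}

/-- The rotation about the axis. -/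
def rot (φ : ℝ) (v : R4) : R4 :=
  (v.1, Real.cos φ * v.2.1 - Real.sin φ * v.2.2.1, Real.sin φ * v.2.1 + Real.cos φ * v.2.2.1,
    v.2.2.2)

/-- The radial unit field. -/
def nv (p : R4) : R4 := (0, (rd p)⁻¹ • p.2)

theorem sh_fd {A' B' : ℝ} (h : rd p ≠ 0) (hA : HasDerivAt A A' (rd p))
    (hB : HasDerivAt B B' (rd p)) (v : R4) : fderiv ℝ (sh A B) p v =
      rot (B (rd p)) v + dr p v • (A' • eT + B' • Om 2 (sh A B p)) := by
  have r := ((rd_cd (n := 1) h).differentiableAt one_ne_zero).hasFDerivAt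
  have b := hB.comp_hasFDerivAt p r
  have i := hasFDerivAt_id (𝕜 := ℝ) p
  have k := ((i.fst.add (hA.comp_hasFDerivAt p r)).prodMk
    (((b.cos.mul i.snd.fst).sub (b.sin.mul i.snd.snd.fst)).prodMk
      (((b.sin.mul i.snd.fst).add (b.cos.mul i.snd.snd.fst)).prodMk i.snd.snd.snd))).fderiv
  rw [show fderiv ℝ (sh A B) p = _ from k]
  ext <;> simp [rd_fd h, rot, eT, Om, sh] <;> ring

theorem ip_rot (φ : ℝ) (v w : R4) : ip (rot φ v) (rot φ w) = ip v w := by
  simp only [ip, rot]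
  linear_combination (v.2.1 * w.2.1 + v.2.2.1 * w.2.2.1) * Real.sin_sq_add_cos_sq φ

theorem ip_sh (A B : ℝ → ℝ) (p v : R4) : ip (sh A B p) (rot (B (rd p)) v) = ip p v :=
  ip_rot (B (rd p)) p v

theorem dr_sh (A B : ℝ → ℝ) (p v : R4) : dr (sh A B p) (rot (B (rd p)) v) = dr p v := by
  rw [dr_eq, dr_eq, ip_sh, rd_sh]

theorem dq_sh (A B : ℝ → ℝ) (p v : R4) : dq (sh A B p) (rot (B (rd p)) v) = dq p v := by
  rw [dq_eq, dq_eq, rd_sh]
  simp only [sh, rot]
  congr 1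
  linear_combination (p.2.1 * v.2.2.1 - p.2.2.1 * v.2.1) * Real.sin_sq_add_cos_sq (B (rd p))

theorem gin_sh (A B : ℝ → ℝ) (M a : ℝ) (p v w : R4) :
    gin M a (sh A B p) (rot (B (rd p)) v) (rot (B (rd p)) w) = gin M a p v w := by
  have e := Sg_eq a (sh A B p)
  rw [rd_sh] at e
  simp only [gin, kf, dr_sh, dq_sh, rnd_eq, ip_sh, ip_rot, rd_sh, e, Sg_eq]
  rfl

/-- The matrix of the rotation. -/
def rm3 {R : Type} [CommRing R] (c s : R) : Fin 3 → Fin 3 → R := ![![c, -s, 0], ![s, c, 0], ![0, 0, 1]]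

theorem rot_Om (A B : ℝ → ℝ) (p : R4) (i : Fin 3) : rot (B (rd p)) (Om i p) =
    ∑ j, rm3 (Real.cos (B (rd p))) (Real.sin (B (rd p))) j i • Om j (sh A B p) := by
  have := Real.sin_sq_add_cos_sq (B (rd p))
  fin_cases i <;> ext <;> simp [rot, Om, sh, rm3, Fin.sum_univ_three] <;>
    first | ring1 | linear_combination p.2.1 * this | linear_combination -p.2.1 * this |
      linear_combination p.2.2.1 * this | linear_combination -p.2.2.1 * this

theorem rm3_orth {R : Type} [CommRing R] {c s : R} (h : s ^ 2 + c ^ 2 = 1) (j k : Fin 3) :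
    ∑ i, rm3 c s j i * rm3 c s k i = if j = k then 1 else 0 := by
  fin_cases j <;> fin_cases k <;> simp [rm3, Fin.sum_univ_three] <;>
    first | ring1 | linear_combination h

theorem dr_nv (h : rd p ≠ 0) (t : ℝ) : dr p (t • eT + nv p) = 1 := by
  have k := rd_sq p
  rw [dr_eq]
  simp [ip, nv, eT] at k ⊢
  field_simp
  linear_combination -k

/-- The outgoing field. -/
theorem sh_nv {A' m : ℝ} (h : rd p ≠ 0) (hA : HasDerivAt A A' (rd p))
    (hB : HasDerivAt B (2 * a / Del M a (rd p)) (rd p)) (e : m + A' = lo1 M a (rd p)) :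
    fderiv ℝ (sh A B) p (m • eT + nv p) = Lo M a (sh A B p) := by
  rw [sh_fd h hA hB, dr_nv h, Lo, rd_sh, ← lo1, ← e]
  ext <;> simp [rot, eT, nv, Om, sh] <;> ring

theorem gin_nv (h : rd p ≠ 0) (hv : dr p v = 0) :
    gin M a p ((-1 : ℝ) • eT + nv p) v = v.1 - a * dq p v := by
  have e : ip p v = 0 := by
    rw [dr_eq] at hv
    exact (div_eq_zero_iff.1 hv).resolve_right h
  have e1 : dq p ((-1 : ℝ) • eT + nv p) = 0 := by
    rw [dq_eq]; simp [eT, nv]; left; ring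
  have e2 : ip ((-1 : ℝ) • eT + nv p) v = 0 := by
    simp only [ip] at e
    simp [ip, eT, nv]
    linear_combination (rd p)⁻¹ * e
  have e3 : ((-1 : ℝ) • eT + nv p).1 = -1 := by simp [eT, nv]
  rw [gin, kf, kf, rnd_eq, dr_nv h, e1, e2, e3, e, hv]
  ring

theorem fd_inv (h : rd p ≠ 0) (hA : ContDiff ℝ ∞ A) (hB : ContDiff ℝ ∞ B) (v : R4) :
    fderiv ℝ (sh (-A) (-B)) (sh A B p) (fderiv ℝ (sh A B) p v) = v := by
  have k : sh (-A) (-B) ∘ sh A B = id := funext (sh_inv A B)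
  rw [← ContinuousLinearMap.comp_apply, ← fderiv_comp p
    ((sh_cd (A := -A) (B := -B) (by rwa [rd_sh]) hA.neg.contDiffAt hB.neg.contDiffAt).differentiableAt (by simp))
    ((sh_cd h hA.contDiffAt hB.contDiffAt).differentiableAt (by simp)), k, fderiv_id]
  rfl

theorem sb_ap {g : Tw} {V W : R4 → R4} (h : Sb g p) (hV : ContDiffAt ℝ ∞ V p)
    (hW : ContDiffAt ℝ ∞ W p) : ContDiffAt ℝ ∞ (fun x => g x (V x) (W x)) p :=
  ((h.cd.clm_apply hV).clm_apply hW).congr_of_eventuallyEq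
    (h.bl.mono fun _ e => (tb_ap e _ _).symm)

theorem Om_cd (i : Fin 3) : ContDiff ℝ ∞ (Om i) := by
  unfold Om
  fin_cases i <;> simp <;> fun_prop

theorem Lo_cd (h : rd p ≠ 0) (hD : Del M a (rd p) ≠ 0) : ContDiffAt ℝ ∞ (Lo M a) p := by
  have r := rd_cd (n := ∞) h
  have o := (Om_cd 2).contDiffAt (x := p)
  unfold Lo
  unfold Del at *
  fun_prop (disch := assumption)

theorem wb_mono {N : ℕ} {f : R4 → ℝ} {c c' d d' : ℝ} (h : Wb M a N f p c c') (h1 : c ≤ d)
    (h2 : c' ≤ d') : Wb M a N f p d d' := fun α hα => ⟨(h α hα).1.trans h1, (h α hα).2.trans h2⟩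

end Vale.Agent.P354TF
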