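import Vale.Agent.P354CV.Bas
import Vale.Agent.P354BO.TwO
import Vale.Agent.P354XA.Fr

/-!
Real functions on a cone which are constant along the fibres come from smooth functions on the base.
-/

open scoped ContDiff
open Set Filter Topology Complex

noncomputable section

namespace Vale.Agent.P354TF

open Vale.Agent.P354n (R4)
open Vale.Agent.P354XE (rd)
open Vale.Agent.P354XA (rd_sq rd_cd ip)
open Vale.Agent.P354XG Vale.Agent.P354XD Vale.Agent.P354XR Vale.Agent.P354XI Vale.Agent.P354Z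
open Vale.Agent.P354CV (cone_hp)
open Vale.Agent.P354BO (fv_z fd_all)

variable {O : Set E6} {f : Sm (on O)} {y : E6}

/-- A local section of the projection. -/
def sec (ξ : ℂ × ℂ) (p : R4) : E6 :=
  (p.1, rd p, ((rd p + p.2.2.2 : ℝ) : ℂ) * ξ.1 + ((p.2.1 : ℂ) - I * p.2.2.1) * ξ.2,
    ((p.2.1 : ℂ) + I * p.2.2.1) * ξ.1 + ((rd p - p.2.2.2 : ℝ) : ℂ) * ξ.2)

theorem pj_sec {ξ : ℂ × ℂ} {p : R4} (h : (sec ξ p).2.2 ≠ 0) : pj (sec ξ p) = p := by
  have n := (nq_pos h).ne'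
  have k := rd_sq p
  rw [ip] at k
  refine Prod.ext rfl (Prod.ext ?_ (Prod.ext ?_ ?_)) <;>
    simp only [pj, ← mul_div_assoc] <;> rw [div_eq_iff n] <;>
    simp [nq, sec, normSq_apply]
  · linear_combination (rd p * (2 * (ξ.1.re * ξ.2.re + ξ.1.im * ξ.2.im)) +
      p.2.1 * (ξ.1.re ^ 2 + ξ.1.im ^ 2 + ξ.2.re ^ 2 + ξ.2.im ^ 2)) * k
  · linear_combination (rd p * (2 * (ξ.1.re * ξ.2.im - ξ.1.im * ξ.2.re)) +
      p.2.2.1 * (ξ.1.re ^ 2 + ξ.1.im ^ 2 + ξ.2.re ^ 2 + ξ.2.im ^ 2)) * k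
  · linear_combination (rd p * (ξ.1.re ^ 2 + ξ.1.im ^ 2 - ξ.2.re ^ 2 - ξ.2.im ^ 2) +
      p.2.2.2 * (ξ.1.re ^ 2 + ξ.1.im ^ 2 + ξ.2.re ^ 2 + ξ.2.im ^ 2)) * k

theorem sec_pj (h : 0 < y.2.1 ∧ y.2.2 ≠ 0) (η : ℂ × ℂ) : sec η (pj y) = (y.1, y.2.1,
    (2 * y.2.1 * (starRingEnd ℂ y.2.2.1 * η.1 + starRingEnd ℂ y.2.2.2 * η.2) / nq y) • y.2.2) := by
  have n := (nq_pos h.2).ne'
  have n' : (nq y : ℂ) ≠ 0 := ofReal_ne_zero.2 n
  rw [sec, rd_pj h.1 h.2]
  refine Prod.ext rfl (Prod.ext rfl (Prod.ext ?_ ?_)) <;>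
    simp only [pj, Prod.smul_fst, Prod.smul_snd, smul_eq_mul] <;> push_cast <;> field_simp <;>
    apply Complex.ext <;> simp [nq, normSq_apply] <;> ring

theorem sec_cd (ξ : ℂ × ℂ) {p : R4} (h : rd p ≠ 0) : ContDiffAt ℝ ∞ (sec ξ) p := by
  have r := rd_cd (n := ∞) h
  have o : ∀ {g : R4 → ℝ}, ContDiffAt ℝ ∞ g p → ContDiffAt ℝ ∞ (fun q => (g q : ℂ)) p :=
    fun hg => ofRealCLM.contDiff.contDiffAt.comp p hg
  have a1 := o (g := fun q => rd q + q.2.2.2) (by fun_prop)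
  have a2 := o (g := fun q => rd q - q.2.2.2) (by fun_prop)
  have a3 := o (g := fun q => q.2.1) (by fun_prop)
  have a4 := o (g := fun q => q.2.2.1) (by fun_prop)
  exact contDiffAt_fst.prodMk (r.prodMk (((a1.mul contDiffAt_const).add
    ((a3.sub (contDiffAt_const.mul a4)).mul contDiffAt_const)).prodMk
    (((a3.add (contDiffAt_const.mul a4)).mul contDiffAt_const).add (a2.mul contDiffAt_const))))

theorem base_B (c : Cone O) (hf : Base f) : (hp (on O)).B f = 0 := by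
  have e := (cone_hp c).c_H f
  rw [hf.H, map_zero, show (hp (on O)).c f = f from hf.re] at e
  exact e.symm

theorem base_inv (c : Cone O) (hf : Base f) (hy : y ∈ O) {k : ℂ} (hk : k ≠ 0) :
    fv f (y.1, y.2.1, k • y.2.2) = fv f y := by
  obtain ⟨w, rfl⟩ : ∃ w, exp w = k := ⟨log k, exp_log hk⟩
  let γ : ℝ → E6 := fun s => (y.1, y.2.1, exp (s * w) • y.2.2)
  have m : ∀ s, γ s ∈ O := fun s => c.hom y hy _ (exp_ne_zero _)
  have d : ∀ s, HasDerivAt (fun s => fv f (γ s)) 0 s := fun s => by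
    have e : HasDerivAt γ (0, 0, (exp (s * w) * (((1 : ℝ) : ℂ) * w)) • y.2.2) s :=
      (hasDerivAt_const s _).prodMk ((hasDerivAt_const s _).prodMk
        (((hasDerivAt_id s).ofReal_comp.mul_const w).cexp.smul_const _))
    have k := ((fv_sm c.op f (m s)).differentiableAt (by simp)).hasFDerivAt.comp_hasDerivAt s e
    have h1 := congrArg (evO ⟨_, m s⟩) hf.H
    have h2 := congrArg (evO ⟨_, m s⟩) (base_B c hf)
    simp only [Hp.H_ap, Hp.B_ap, map_add, map_mul, map_zero] at h1 h2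
    simp only [evO, RingHom.coe_mk, MonoidHom.coe_mk, OneHom.coe_mk, fv_z _ (m s)] at h1 h2
    refine k.congr_deriv ?_
    rw [fd_all c.op f (m s)]
    simp [zc, Fin.sum_univ_six, γ] at h1 h2 ⊢
    linear_combination w * h1 + starRingEnd ℂ w * h2
  have := is_const_of_deriv_eq_zero (fun s => (d s).differentiableAt) (fun s => (d s).deriv) 1 0
  simpa [γ] using this

theorem base_fib (c : Cone O) (hf : Base f) (hy : y ∈ O) {y' : E6} (hy' : y' ∈ O)
    (e : pj y = pj y') : fv f y = fv f y' := by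
  have p := c.pos y' hy'
  have n : (nq y' : ℂ) ≠ 0 := ofReal_ne_zero.2 (nq_pos p.2).ne'
  have a := sec_pj (c.pos y hy) y'.2.2
  have b := sec_pj p y'.2.2
  have k : 2 * y'.2.1 * (starRingEnd ℂ y'.2.2.1 * y'.2.2.1 + starRingEnd ℂ y'.2.2.2 * y'.2.2.2) /
      nq y' ≠ (0 : ℂ) := by
    rw [← normSq_eq_conj_mul_self, ← normSq_eq_conj_mul_self, ← ofReal_add]
    exact div_ne_zero (mul_ne_zero (mul_ne_zero two_ne_zero (ofReal_ne_zero.2 p.1.ne')) n) n
  rw [← base_inv c hf hy' k, ← b, ← e, a, base_inv c hf hy]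
  intro z
  rw [z, zero_smul, e, b] at a
  exact smul_ne_zero k p.2 (congrArg (·.2.2) a)

theorem sec_mem (c : Cone O) (hy : y ∈ O) : sec y.2.2 (pj y) ∈ O := by
  have p := c.pos y hy
  have n : (nq y : ℂ) ≠ 0 := ofReal_ne_zero.2 (nq_pos p.2).ne'
  rw [sec_pj p, ← normSq_eq_conj_mul_self, ← normSq_eq_conj_mul_self, ← ofReal_add]
  exact c.hom y hy _
    (div_ne_zero (mul_ne_zero (mul_ne_zero two_ne_zero (ofReal_ne_zero.2 p.1.ne')) n) n)

theorem sec_ev (c : Cone O) (hy : y ∈ O) : ∀ᶠ q in 𝓝 (pj y), sec y.2.2 q ∈ O :=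
  (sec_cd y.2.2 ((rd_pj (c.pos y hy).1 (c.pos y hy).2).trans_ne
    (c.pos y hy).1.ne')).continuousAt.eventually (c.op.eventually_mem (sec_mem c hy))

/-- The projection of a cone is open. -/
theorem ev_pj (c : Cone O) (hy : y ∈ O) {P : R4 → Prop} (h : ∀ y ∈ O, P (pj y)) :
    ∀ᶠ q in 𝓝 (pj y), P q :=
  (sec_ev c hy).mono fun _ hq => pj_sec (c.pos _ hq).2 ▸ h _ hq

/-- The descent to the base. -/
theorem descent (c : Cone O) (hf : Base f) :
    ∃ g : R4 → ℝ, ∀ y ∈ O, ContDiffAt ℝ ∞ g (pj y) ∧ fv f y = g (pj y) := by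
  classical
  let g : R4 → ℝ := fun p => if h : ∃ y ∈ O, pj y = p then rv f h.choose else 0
  have e : ∀ y ∈ O, g (pj y) = rv f y := fun y hy => by
    have h : ∃ y' ∈ O, pj y' = pj y := ⟨y, hy, rfl⟩
    simp only [g, dif_pos h, rv, base_fib c hf h.choose_spec.1 hy h.choose_spec.2]
  refine ⟨g, fun y hy => ⟨?_, ?_⟩⟩
  · have p := c.pos y hy
    refine (reCLM.contDiff.contDiffAt.comp _ ((fv_sm c.op f (sec_mem c hy)).comp _
      (sec_cd y.2.2 ((rd_pj p.1 p.2).trans_ne p.1.ne')))).congr_of_eventuallyEq ?_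
    filter_upwards [sec_ev c hy] with q hq
    rw [← pj_sec (c.pos _ hq).2, e _ hq, pj_sec (c.pos _ hq).2]
    rfl
  · rw [e y hy, rv]
    exact (conj_eq_iff_re.1 (by rw [← fv_cj, hf.re])).symm

end Vale.Agent.P354TF
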