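import Vale.Agent.P354TF.Geo
import Vale.Agent.P354BO.Q2

/-!
Uniform bounds for the jets of the coefficients of the rotation.
-/

open Finset

noncomputable section

namespace Vale.Agent.P354TF

open Vale.Agent.P354XG Vale.Agent.P354XI Vale.Agent.P354Z Vale.Agent.P354BO

/-- Letters, a point, and the functions r, 1 / r, r^2 / Delta, cos B, sin B. -/
structure In (M a : ℝ) where
  O : Set E6
  X : Fin 5 → Der (Sm (on O))
  x : E6
  r : Sm (on O)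
  ri : Sm (on O)
  w : Sm (on O)
  c : Sm (on O)
  s : Sm (on O)
  hr : r * ri = 1
  r0 : X 0 r = 0
  z : ∀ b, b ≠ 1 → X b ri = 0 ∧ X b w = 0 ∧ X b c = 0 ∧ X b s = 0
  ri1 : X 1 ri = -ri
  w1 : X 1 w = -(w * w * ((2 * M : ℂ) • ri - (2 * a ^ 2 : ℂ) • (ri * ri)))
  c1 : X 1 c = -((2 * a : ℂ) • (ri * (w * s)))
  s1 : X 1 s = (2 * a : ℂ) • (ri * (w * c))
  v : ‖fv ri x‖ ≤ M⁻¹ ∧ ‖fv w x‖ ≤ 2 ∧ ‖fv c x‖ ≤ 1 ∧ ‖fv s x‖ ≤ 1

variable {M a : ℝ} {n : ℕ} {F G : ∀ i : In M a, Sm (on i.O)}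

/-- Uniformly bounded jets. -/
def Bq (n : ℕ) (F : ∀ i : In M a, Sm (on i.O)) : Prop :=
  ∃ B, 1 ≤ B ∧ ∀ i : In M a, q2 i.X i.x n (F i) ≤ B

theorem Bq.mul (h : Bq n F) (h' : Bq n G) : Bq n fun i => F i * G i := by
  obtain ⟨B, b, h⟩ := h
  obtain ⟨C, c, h'⟩ := h'
  refine ⟨2 ^ n * (B * C), one_le_mul_of_one_le_of_one_le (one_le_pow₀ one_le_two)
    (one_le_mul_of_one_le_of_one_le b c), fun i => (q2_mul _ _ n _ _).trans ?_⟩
  have := q2_nonneg i.X i.x n (G i)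
  have := h i
  have := h' i
  gcongr

theorem Bq.sub (h : Bq n F) (h' : Bq n G) : Bq n fun i => F i - G i := by
  obtain ⟨B, b, h⟩ := h
  obtain ⟨C, c, h'⟩ := h'
  exact ⟨2 * (B + C), by linarith, fun i => (q2_sub _ _ n _ _).trans (by linarith [h i, h' i])⟩

theorem Bq.neg (h : Bq n F) : Bq n fun i => -F i := by simpa only [Bq, q2_neg] using h

theorem Bq.smul (z : ℂ) (h : Bq n F) : Bq n fun i => z • F i := by
  obtain ⟨B, b, h⟩ := h
  refine ⟨‖z‖ ^ 2 * B + 1, le_add_of_nonneg_left (by positivity), fun i => ?_⟩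
  rw [q2_smul]
  linarith [mul_le_mul_of_nonneg_left (h i) (sq_nonneg ‖z‖)]

theorem Bq.succ (h : Bq n F) (h' : Bq n G) (e : ∀ i : In M a, i.X 1 (F i) = G i)
    (z : ∀ (i : In M a) b, b ≠ 1 → i.X b (F i) = 0) : Bq (n + 1) F := by
  obtain ⟨B, b, h⟩ := h
  obtain ⟨C, c, h'⟩ := h'
  refine ⟨B + C, by linarith, fun i => add_le_add (h i) ?_⟩
  rw [sum_eq_single 1 (fun b _ hb => by rw [z i b hb, q2_zero]) (by simp), e]
  exact h' i

theorem bq_val {d : ℝ} (h : ∀ i : In M a, ‖fv (F i) i.x‖ ≤ d) : Bq 0 F :=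
  ⟨d ^ 2 + 1, le_add_of_nonneg_left (sq_nonneg d), fun i =>
    (pow_le_pow_left₀ (norm_nonneg _) (h i) 2).trans (le_add_of_nonneg_right zero_le_one)⟩

theorem bq_gen (M a : ℝ) : ∀ n, Bq n (fun i : In M a => i.ri) ∧ Bq n (fun i : In M a => i.w) ∧
    Bq n (fun i : In M a => i.c) ∧ Bq n fun i : In M a => i.s
  | 0 => ⟨bq_val fun i => i.v.1, bq_val fun i => i.v.2.1, bq_val fun i => i.v.2.2.1,
      bq_val fun i => i.v.2.2.2⟩
  | n + 1 => by
    obtain ⟨r, w, c, s⟩ := bq_gen M a n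
    exact ⟨r.succ r.neg (fun i => i.ri1) fun i b h => (i.z b h).1,
      w.succ ((w.mul w).mul ((r.smul _).sub ((r.mul r).smul _))).neg (fun i => i.w1)
        fun i b h => (i.z b h).2.1,
      c.succ ((r.mul (w.mul s)).smul _).neg (fun i => i.c1) fun i b h => (i.z b h).2.2.1,
      s.succ ((r.mul (w.mul c)).smul _) (fun i => i.s1) fun i b h => (i.z b h).2.2.2⟩

namespace In
variable (i : In M a)

/-- The matrix of the rotation, its derivative, the rotated letters. -/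
def P (k j : Fin 3) : Sm (on i.O) := rm3 i.c i.s k j
def P' (k j : Fin 3) : Sm (on i.O) := i.r * i.X 1 (i.P k j)
def Ro (k : Fin 3) : Der (Sm (on i.O)) := ∑ j, i.P k j • i.X j.succ.succ
def Y : Fin 5 → Der (Sm (on i.O)) := ![i.X 0, i.X 1, i.Ro 0, i.Ro 1, i.Ro 2]

/-- Bounds of the words, and of the words of the time derivative. -/
def W (n : ℕ) (f : Sm (on i.O)) (d d' : ℝ) : Prop :=
  q2 i.X i.x n f ≤ d ^ 2 ∧ q2 i.X i.x n (i.X 0 f) ≤ d' ^ 2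

theorem P'_eq : i.P' = ![![-((2 * a : ℂ) • (i.w * i.s)), -((2 * a : ℂ) • (i.w * i.c)), 0],
    ![(2 * a : ℂ) • (i.w * i.c), -((2 * a : ℂ) • (i.w * i.s)), 0], ![0, 0, 0]] := by
  funext k j
  fin_cases k <;> fin_cases j <;> simp [P', P, rm3, i.c1, i.s1, ← mul_assoc, i.hr]

theorem T_P (k j : Fin 3) : i.X 0 (i.P k j) = 0 ∧ i.X 0 (i.P' k j) = 0 := by
  obtain ⟨-, w, c, s⟩ := i.z 0 (by simp)
  rw [P'_eq]
  fin_cases k <;> fin_cases j <;> simp [P, rm3, w, c, s]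

variable {i} {f g : Sm (on i.O)} {d d' e e' : ℝ}

theorem W.add (h : i.W n f d d') (h' : i.W n g d d') : i.W n (f + g) (2 * d) (2 * d') :=
  ⟨(q2_add _ _ n _ _).trans (by linarith [h.1, h'.1]), by
    rw [map_add]; exact (q2_add _ _ n _ _).trans (by linarith [h.2, h'.2])⟩

theorem W.mono (h : i.W n f d d') (d0 : 0 ≤ d) (d1 : 0 ≤ d') (h1 : d ≤ e) (h2 : d' ≤ e') :
    i.W n f e e' :=
  ⟨h.1.trans (pow_le_pow_left₀ d0 h1 2), h.2.trans (pow_le_pow_left₀ d1 h2 2)⟩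

theorem W.lin {Q f : Fin 3 → Sm (on i.O)} {B : ℝ} (b : 1 ≤ B) (hQ : ∀ j, q2 i.X i.x n (Q j) ≤ B)
    (T : ∀ j, i.X 0 (Q j) = 0) (h : ∀ j, i.W n (f j) d d') :
    i.W n (∑ j, Q j * f j) (3 * 2 ^ n * B * d) (3 * 2 ^ n * B * d') := by
  have k : ∀ (f : Fin 3 → Sm (on i.O)) (d : ℝ), (∀ j, q2 i.X i.x n (f j) ≤ d ^ 2) →
      q2 i.X i.x n (∑ j, Q j * f j) ≤ (3 * 2 ^ n * B * d) ^ 2 := fun f d h => by
    have e : ∀ j, q2 i.X i.x n (Q j * f j) ≤ (2 ^ n * B * d) ^ 2 := fun j => by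
      have p : (1 : ℝ) ≤ 2 ^ n * B := one_le_mul_of_one_le_of_one_le (one_le_pow₀ one_le_two) b
      have := q2_nonneg i.X i.x n (f j)
      have := h j
      have := hQ j
      calc _ ≤ 2 ^ n * (B * d ^ 2) := (q2_mul _ _ n _ _).trans (by gcongr)
        _ ≤ _ := by
          nlinarith [mul_nonneg (mul_nonneg (zero_le_one.trans p) (sub_nonneg.2 p)) (sq_nonneg d)]
    refine (q2_sum _ _ _ n _).trans ?_
    simp only [card_univ, Fintype.card_fin, Fin.sum_univ_three]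
    push_cast
    linarith [e 0, e 1, e 2]
  refine ⟨k f d fun j => (h j).1, ?_⟩
  simp only [map_sum, D_mul, T, mul_zero, add_zero]
  exact k _ d' fun j => (h j).2

end In

/-- The uniform constant. -/
theorem est (M a : ℝ) (N : ℕ) : ∃ K, 1 ≤ K ∧ ∀ (i : In M a), ∀ n ≤ N,
    (∀ f d, q2 i.X i.x n f ≤ d ^ 2 → q2 i.Y i.x n f ≤ (K * d) ^ 2) ∧
    ∀ (f : Fin 3 → Sm (on i.O)) d d', 0 ≤ d → 0 ≤ d' → (∀ j, i.W n (f j) d d') → ∀ k,
      i.W n (∑ j, i.P k j * f j) (K * d) (K * d') ∧ i.W n (∑ j, i.P' k j * f j) (K * d) (K * d') := by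
  obtain ⟨-, w, c, s⟩ := bq_gen M a N
  obtain ⟨B1, b1, h1⟩ := c
  obtain ⟨B2, b2, h2⟩ := s
  obtain ⟨B3, b3, h3⟩ := (w.mul ⟨B1, b1, h1⟩).smul (2 * a)
  obtain ⟨B4, b4, h4⟩ := (w.mul ⟨B2, b2, h2⟩).smul (2 * a)
  obtain ⟨B, hB⟩ : ∃ B, B = B1 + B2 + B3 + B4 := ⟨_, rfl⟩
  have b : 1 ≤ B := by linarith
  have p1 : (1 : ℝ) ≤ 1 + 5 * 5 * 2 ^ N * B := le_add_of_nonneg_right (by positivity)
  have p2 := one_le_pow₀ (n := N) p1
  have p3 : (0 : ℝ) ≤ 3 * 2 ^ N * B := by positivity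
  refine ⟨(1 + 5 * 5 * 2 ^ N * B) ^ N + 3 * 2 ^ N * B, by linarith, fun i n hn => ?_⟩
  have q0 : q2 i.X i.x N 0 ≤ B := (q2_zero _ _ N).trans_le (by linarith)
  have q1 : q2 i.X i.x N 1 ≤ B := le_trans (by simpa using q2_alg i.X i.x 1 N) b
  have qc : q2 i.X i.x N i.c ≤ B := by linarith [h1 i]
  have qs : q2 i.X i.x N i.s ≤ B := by linarith [h2 i]
  have q3 : q2 i.X i.x N ((2 * a : ℂ) • (i.w * i.c)) ≤ B := by linarith [h3 i]
  have q4 : q2 i.X i.x N ((2 * a : ℂ) • (i.w * i.s)) ≤ B := by linarith [h4 i]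
  have hP : ∀ k j, q2 i.X i.x N (i.P k j) ≤ B ∧ q2 i.X i.x N (i.P' k j) ≤ B := fun k j => by
    rw [i.P'_eq]
    fin_cases k <;> fin_cases j <;> simp only [In.P, rm3, Fin.reduceFinMk, Matrix.cons_val, q2_neg] <;>
      exact ⟨by assumption, by assumption⟩
  refine ⟨fun f d h => ?_, fun f d d' d0 d1 h k => ?_⟩
  · have := q2_chg i.X i.x (Y := i.Y) (c := ![![1, 0, 0, 0, 0], ![0, 1, 0, 0, 0],
      ![0, 0, i.c, -i.s, 0], ![0, 0, i.s, i.c, 0], ![0, 0, 0, 0, 1]]) (N := N) (B := B)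
      (fun u f => by
        fin_cases u <;> simp [In.Y, In.Ro, In.P, rm3, Fin.sum_univ_succ])
      (by linarith) (fun u v => by
        fin_cases u <;> fin_cases v <;> simp only [Fin.reduceFinMk, Matrix.cons_val, q2_neg] <;>
          assumption) n (by omega) f
    simp only [Fintype.card_fin, Nat.cast_ofNat] at this
    refine this.trans ((mul_le_mul (pow_le_pow_right₀ p1 hn) h (q2_nonneg _ _ _ _)
      (by linarith)).trans ?_)
    rw [mul_pow]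
    exact mul_le_mul_of_nonneg_right (by nlinarith) (sq_nonneg d)
  · have m : (3 * 2 ^ n * B : ℝ) ≤ (1 + 5 * 5 * 2 ^ N * B) ^ N + 3 * 2 ^ N * B := by
      have : (3 * 2 ^ n * B : ℝ) ≤ 3 * 2 ^ N * B := by
        have := pow_le_pow_right₀ (one_le_two (α := ℝ)) hn
        gcongr
      linarith
    have p : (0 : ℝ) ≤ 3 * 2 ^ n * B := by positivity
    exact ⟨(In.W.lin b (fun j => (q2_mono _ _ hn _).trans (hP k j).1) (fun j => (i.T_P k j).1)
        h).mono (mul_nonneg p d0) (mul_nonneg p d1) (mul_le_mul_of_nonneg_right m d0)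
        (mul_le_mul_of_nonneg_right m d1),
      (In.W.lin b (fun j => (q2_mono _ _ hn _).trans (hP k j).2) (fun j => (i.T_P k j).2)
        h).mono (mul_nonneg p d0) (mul_nonneg p d1) (mul_le_mul_of_nonneg_right m d0)
        (mul_le_mul_of_nonneg_right m d1)⟩

end Vale.Agent.P354TF
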