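import Vale.Agent.P354TF.Rel
import Vale.Agent.P354TF.Est
import Vale.Agent.P354XT.Calc

/-!
The letters in the far zone.
-/

open scoped ContDiff
open Set Filter Topology

noncomputable section

namespace Vale.Agent.P354TF

open Vale.Agent.P354n (R4)
open Vale.Agent.P354R (Del)
open Vale.Agent.P354XE (Tw rd eT gin Lo wd vf Wb Nf ftt uw wt Far)
open Vale.Agent.P354XA (lo1 gin_Lo dr_T dr_Om dq_eq met_bil rd_nonneg)
open Vale.Agent.P354XG Vale.Agent.P354XD Vale.Agent.P354XR Vale.Agent.P354XI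
open Vale.Agent.P354XG.Geo (dv dot dot_add_left dot_add_right dot_smul_left dot_smul_right)
open Vale.Agent.P354Z Vale.Agent.P354CV Vale.Agent.P354YO
open Vale.Agent.P354XT (up_one dn_one)
open Vale.Agent.P354BO (fv_z fr1 fv_fr1 d_fr1 re_sm)

variable {M a : ℝ} {A B : ℝ → ℝ}

theorem del_ge (h : |a| < M) {r : ℝ} (hr : 6 * M ≤ r) : 0 < r ∧ r ^ 2 / 2 ≤ Del M a r := by
  have := (abs_nonneg a).trans_lt h
  refine ⟨by linarith, ?_⟩
  unfold Del
  nlinarith [sq_nonneg a]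

theorem del_ne (h : |a| < M) {r : ℝ} (hr : 6 * M ≤ r) : Del M a r ≠ 0 :=
  ((half_pos (pow_pos (del_ge h hr).1 2)).trans_le (del_ge h hr).2).ne'

theorem th_cx (h : |a| < M) (ht : IsTh M M a A B) {O : Set E6} (c : Cone O) : Cx O A B := by
  have p := (abs_nonneg a).trans_lt h
  have l : ContDiff ℝ ∞ fun r : ℝ => (M, a, r) := by fun_prop
  refine ⟨c, contDiff_infty_iff_deriv.2 ⟨fun r => (ht r).1.differentiableAt, ?_⟩,
    contDiff_infty_iff_deriv.2 ⟨fun r => (ht r).2.differentiableAt, ?_⟩⟩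
  · rw [funext fun r => (ht r).1.deriv]
    exact ((hs_cd p).comp l).sub contDiff_const
  · rw [funext fun r => (ht r).2.deriv]
    exact contDiff_const.mul ((js_cd p).comp l)

theorem th_far (h : |a| < M) (ht : IsTh M M a A B) {r : ℝ} (hr : 6 * M ≤ r) :
    HasDerivAt A (lo1 M a r - 4 * M ^ 2 / r ^ 2) r ∧ HasDerivAt B (2 * a / Del M a r) r := by
  have p := (abs_nonneg a).trans_lt h
  have c : cut M (M, a, r) = 1 := by
    rw [cut, up_one (by linarith) hr, dn_one (by linarith) (by linarith), one_mul]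
  refine ⟨(ht r).1.congr_deriv ?_, (ht r).2.congr_deriv ?_⟩ <;>
    simp only [hs, js, c, lo1, P354BF.De, Del] <;> ring

section alg
variable {R : Type} [CommRing R] [Algebra ℂ R] (S : Geo R) (K : Hp R) (P : Fin 3 → R)
  (D : Fin 3 → Der R) (Y : Vec R)

theorem prj_sum : K.prj (∑ j, P j • D j) =
    P 0 • K.prj (D 0) + P 1 • K.prj (D 1) + P 2 • K.prj (D 2) := by
  funext b; simp [Hp.prj, dv, Fin.sum_univ_three]

theorem dot_r : S.dot Y (K.prj (∑ j, P j • D j)) = ∑ j, P j * S.dot Y (K.prj (D j)) := by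
  rw [prj_sum]
  simp only [dot_add_right, dot_smul_right, Fin.sum_univ_three]

theorem dot_l : S.dot (K.prj (∑ j, P j • D j)) Y = ∑ j, P j * S.dot (K.prj (D j)) Y := by
  rw [prj_sum]
  simp only [dot_add_left, dot_smul_left, Fin.sum_univ_three]

end alg

theorem Rel.sum {O : Set E6} {F : Fin 3 → Sm (on O)} {f : Fin 3 → R4 → ℝ}
    (h : ∀ j, Rel A B (F j) (f j)) : Rel A B (∑ j, F j) fun q => ∑ j, f j q := by
  simp only [Fin.sum_univ_three]
  exact ((h 0).add (h 1)).add (h 2)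

theorem Vc.sum {O : Set E6} {Y : Fin 3 → Der (Sm (on O))} {V : Fin 3 → R4 → R4}
    (h : ∀ j, Vc A B (Y j) (V j)) : Vc A B (∑ j, Y j) fun q => ∑ j, V j q := by
  simp only [Fin.sum_univ_three]
  exact ((h 0).add (h 1)).add (h 2)

variable {z : Fz} {x : E6}

theorem lr_rad {u : z.A} (k : ∀ i, i ≠ 1 → (hp _).d i u = 0) :
    (∀ b, b ≠ 1 → z.lr M b u = 0) ∧ z.lr M 1 u = z.r * (hp _).d 1 u := by
  refine ⟨fun b hb => ?_, congrArg (z.r * ·) ((kk_R _ _ u).trans ?_)⟩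
  · fin_cases b <;> simp [Fz.lr, Fz.T, Fz.Om, Om, k] at hb ⊢
  · rw [(kill k).1, (kill k).2.2.2.2.2, mul_zero, mul_zero, sub_zero, sub_zero]
    rfl

/-- Delta / r^2, and its inverse. -/
def u0 (z : Fz) (M a : ℝ) : z.A := 1 - (2 * M : ℂ) • z.ri + (a ^ 2 : ℂ) • (z.ri * z.ri)
def ww (z : Fz) (M a : ℝ) : z.A := Ring.inverse (u0 z M a)

theorem fv_ri (c : Cone z.O) (hx : x ∈ z.O) : fv z.ri x = (x.2.1 : ℂ)⁻¹ :=
  fv_rs (rs_ri (cone_pos c).off) hx

theorem fv_u0 (c : Cone z.O) (hx : x ∈ z.O) :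
    fv (u0 z M a) x = (Del M a x.2.1 / x.2.1 ^ 2 : ℝ) := by
  have r : (x.2.1 : ℂ) ≠ 0 := Complex.ofReal_ne_zero.2 (c.pos x hx).1.ne'
  have e := (evO ⟨x, hx⟩).map_sub 1 ((2 * M : ℂ) • z.ri)
  rw [u0, fv_add, show fv _ x = _ from e, map_one, show evO ⟨x, hx⟩ _ = fv _ x from rfl, fv_smul,
    fv_smul, fv_mul, fv_ri c hx, Del]
  push_cast
  field_simp

section inst
variable (h : |a| < M) (hz : z.Is0 M) (ht : IsTh M M a A B)
include h hz

theorem ww_u0 : ww z M a * u0 z M a = 1 :=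
  Ring.inverse_mul_cancel _ (isUnit_of_ne (on_of hz.co.op fun x hx => by
    rw [← fv_in _ hx, fv_u0 hz.co hx, Complex.ofReal_ne_zero]
    exact div_ne_zero (del_ne h (hz.rad x hx)) (pow_ne_zero 2 (hz.co.pos x hx).1.ne')))

theorem fv_ww (hx : x ∈ z.O) : fv (ww z M a) x = (x.2.1 ^ 2 / Del M a x.2.1 : ℝ) := by
  have e := congrArg (fv · x) (ww_u0 h hz)
  simp only [fv_mul, fv_u0 hz.co hx] at e
  rw [show fv 1 x = 1 from (evO ⟨x, hx⟩).map_one] at e
  rw [eq_inv_of_mul_eq_one_left e, ← Complex.ofReal_inv, inv_div]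

omit h in
theorem lr_ri : (∀ b, b ≠ 1 → z.lr M b z.ri = 0) ∧ z.lr M 1 z.ri = -z.ri := by
  have k := cone_hp hz.co
  obtain ⟨e1, e2⟩ := lr_rad (M := M) (u := z.ri) fun i hi => by simp [Fz.ri, k.d_ri, k.dz, hi]
  refine ⟨e1, e2.trans ?_⟩
  simp only [Fz.ri, Fz.r, k.d_ri, k.dz]
  simp [← mul_assoc, k.hr]

include ht

theorem lr_rf {φ ψ : ℝ → ℝ} {m : ℝ} (hφ : ContDiff ℝ ∞ φ) (hψ : ContDiff ℝ ∞ ψ)
    (d : ∀ t, HasDerivAt φ (m * ψ t) t) : (∀ b, b ≠ 1 → z.lr M b (rf z.O (φ ∘ B)) = 0) ∧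
    z.lr M 1 (rf z.O (φ ∘ B)) = (m : ℂ) • (2 * a : ℂ) • (z.ri * (ww z M a * rf z.O (ψ ∘ B))) := by
  have sB := (th_cx h ht hz.co).sB
  have s := re_sm (hφ.comp sB)
  obtain ⟨e1, e2⟩ := lr_rad (M := M) (u := rf z.O (φ ∘ B)) (d_fr1 hz.co.op s).1
  refine ⟨e1, e2.trans (ext_fv hz.co.op fun x hx => ?_)⟩
  have r : (x.2.1 : ℂ) ≠ 0 := Complex.ofReal_ne_zero.2 (hz.co.pos x hx).1.ne'
  rw [show (hp _).d 1 (rf z.O (φ ∘ B)) = _ from (d_fr1 hz.co.op s).2, fv_mul, fv_smul, fv_smul,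
    fv_mul, fv_mul, fv_fr1 (contDiff_infty_iff_deriv.1 s).2 hx, fv_ri hz.co hx, fv_ww h hz hx,
    fv_rf hz.co (hψ.comp sB).contDiffOn hx, Fz.r, fv_z _ hx,
    ((d _).comp _ (th_far h ht (hz.rad x hx)).2).ofReal_comp.deriv]
  simp [zc]
  field_simp

/-- The instance. -/
def ins (hx : x ∈ z.O) : In M a where
  O := z.O
  X := z.lr M
  x := x
  r := z.r
  ri := z.ri
  w := ww z M a
  c := rf z.O (Real.cos ∘ B)
  s := rf z.O (Real.sin ∘ B)
  hr := (cone_hp hz.co).hr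
  r0 := ((cone_hp hz.co).dz 0 1).trans (by simp)
  z b hb := ⟨(lr_ri hz).1 b hb, by
      simp [KC.D_inv _ (ww_u0 h hz), u0, (lr_ri hz).1 b hb],
    (lr_rf h hz ht (m := -1) Real.contDiff_cos Real.contDiff_sin fun t => by
      simpa using Real.hasDerivAt_cos t).1 b hb,
    (lr_rf h hz ht (m := 1) Real.contDiff_sin Real.contDiff_cos fun t => by
      simpa using Real.hasDerivAt_sin t).1 b hb⟩
  ri1 := (lr_ri hz).2
  w1 := by
    rw [KC.D_inv _ (ww_u0 h hz)]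
    simp only [u0, map_add, map_sub, D_mul, D_one, (lr_ri hz).2,
      Algebra.smul_def, map_mul, map_ofNat, D_alg, D_num]
    ring
  c1 := by
    simpa using (lr_rf h hz ht (m := -1) Real.contDiff_cos Real.contDiff_sin fun t => by
      simpa using Real.hasDerivAt_cos t).2
  s1 := by
    simpa using (lr_rf h hz ht (m := 1) Real.contDiff_sin Real.contDiff_cos fun t => by
      simpa using Real.hasDerivAt_sin t).2
  v := by
    have sB := (th_cx h ht hz.co).sB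
    have p := (abs_nonneg a).trans_lt h
    obtain ⟨r, d⟩ := del_ge h (hz.rad x hx)
    have d0 := (half_pos (pow_pos r 2)).trans_le d
    rw [fv_ri hz.co hx, fv_ww h hz hx, fv_rf hz.co (Real.contDiff_cos.comp sB).contDiffOn hx,
      fv_rf hz.co (Real.contDiff_sin.comp sB).contDiffOn hx, norm_inv]
    simp only [Complex.norm_real, Real.norm_eq_abs]
    refine ⟨inv_anti₀ p ((le_abs_self _).trans' (by linarith [hz.rad x hx])), ?_,
      Real.abs_cos_le_one _, Real.abs_sin_le_one _⟩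
    rw [abs_of_pos (by positivity), div_le_iff₀ d0]
    linarith

end inst

/-- The matrix of the rotation in the final chart. -/
def Pr (B : ℝ → ℝ) (k j : Fin 3) (q : R4) : ℝ := rm3 (Real.cos (B (rd q))) (Real.sin (B (rd q))) k j

section vc
variable {O : Set E6} (c : Cx O A B)
include c

theorem rel_P (k j : Fin 3) :
    Rel A B (rm3 (rf O (Real.cos ∘ B)) (rf O (Real.sin ∘ B)) k j) (Pr B k j) := by
  have a1 := rel_rf c (Real.contDiff_cos.comp c.sB)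
  have a2 := rel_rf c (Real.contDiff_sin.comp c.sB)
  fin_cases k <;> fin_cases j
  exacts [a1, a2.neg, rel_zero, a2, a1, rel_zero, rel_zero, rel_zero, rel_one]

theorem vc_Om (j : Fin 3) :
    Vc A B (Om (hp (on O)) j) fun q => ∑ k, Pr B k j q • P354XE.Om k q :=
  ⟨spn_Om (cone_hp c.co) j, fun y hy => ⟨ContDiffAt.sum fun k _ =>
    (rel_P c k j y hy).1.smul (Om_cd k).contDiffAt, _, cp_Om c.co hy j, by
      simp only [c.tan hy (dr_Om j _), rot_Om A B, Pr, rd_sh]⟩⟩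

theorem vc_Ro (k : Fin 3) : Vc A B (∑ j, rm3 (rf O (Real.cos ∘ B)) (rf O (Real.sin ∘ B)) k j •
    Om (hp (on O)) j) (P354XE.Om k) :=
  (Vc.sum fun j => (vc_Om c j).smul (rel_P c k j)).congr fun q => by
    simp only [Finset.smul_sum, smul_smul]
    rw [Finset.sum_comm]
    simp [← Finset.sum_smul, Pr, rm3_orth (Real.sin_sq_add_cos_sq _)]

end vc

theorem vc_R (h : |a| < M) (hz : z.Is0 M) (ht : IsTh M M a A B) : Vc A B (z.R M) (Lo M a) := by
  have c := th_cx h ht hz.co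
  refine ⟨by rw [Fz.R, R_V]; exact spn_V (cone_hp hz.co) _ _ _ _ _ _, fun y hy => ?_⟩
  have t := th_far h ht ((hz.rad y hy).trans_eq (c.rd hy).symm)
  refine ⟨Lo_cd (by rw [rd_sh]; exact c.ne hy) (by rw [rd_sh, c.rd hy]; exact del_ne h (hz.rad y hy)),
    _, cp_R hz.co hy rfl ?_, sh_nv (c.ne hy) t.1 t.2 (add_sub_cancel _ _)⟩
  rw [show fv (-_) y = _ from (evO ⟨y, hy⟩).map_neg _, c.rd hy]
  exact (congrArg Neg.neg (fv_rf hz.co (ho_on M) hy)).trans (by simp)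

/-- The matrix of the rotation, and the rotated letters. -/
def Pz (z : Fz) (B : ℝ → ℝ) (k j : Fin 3) : z.A :=
  rm3 (rf z.O (Real.cos ∘ B)) (rf z.O (Real.sin ∘ B)) k j
def Rz (z : Fz) (B : ℝ → ℝ) (k : Fin 3) : Der z.A := ∑ j, Pz z B k j • z.Om j
def Yz (z : Fz) (M : ℝ) (B : ℝ → ℝ) : Fin 5 → Der z.A :=
  ![z.T, z.r • z.R M, Rz z B 0, Rz z B 1, Rz z B 2]

/-- The estimates of the coefficients. -/
def Es (z : Fz) (M : ℝ) (B : ℝ → ℝ) (x : E6) (n : ℕ) (K : ℝ) : Prop :=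
  (∀ f d, q2 (z.lr M) x n f ≤ d ^ 2 → q2 (Yz z M B) x n f ≤ (K * d) ^ 2) ∧
    ∀ (f : Fin 3 → z.A) d d', 0 ≤ d → 0 ≤ d' → (∀ j, z.Wq M n x (f j) d d') → ∀ k,
      z.Wq M n x (∑ j, Pz z B k j * f j) (K * d) (K * d') ∧
      z.Wq M n x (∑ j, z.r * z.lr M 1 (Pz z B k j) * f j) (K * d) (K * d')

theorem lr_Om (j : Fin 3) : z.lr M j.succ.succ = z.Om j := by fin_cases j <;> rfl

theorem est_z (h : |a| < M) (N : ℕ) : ∃ K, 1 ≤ K ∧ ∀ (z : Fz) A B, z.Is0 M → IsTh M M a A B →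
    ∀ x ∈ z.O, ∀ n ≤ N, Es z M B x n K := by
  obtain ⟨K, K1, hK⟩ := est M a N
  refine ⟨K, K1, fun z A B hz ht x hx n hn => ?_⟩
  have e : ∀ k, (ins h hz ht hx).Ro k = Rz z B k := fun k =>
    Finset.sum_congr rfl fun j _ => congrArg (fun D : Der z.A => Pz z B k j • D) (lr_Om (M := M) j)
  have e' : (ins h hz ht hx).Y = Yz z M B := by
    rw [In.Y, e, e, e]; rfl
  have := hK (ins h hz ht hx) n hn
  rw [e'] at this
  exact this

theorem vc_Y (h : |a| < M) (hz : z.Is0 M) (ht : IsTh M M a A B) (b : Fin 5) :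
    Vc A B (Yz z M B b) (vf M a b) := by
  have c := th_cx h ht hz.co
  fin_cases b
  exacts [vc_T c, (vc_R h hz ht).smul (rel_r c), vc_Ro c 0, vc_Ro c 1, vc_Ro c 2]

end Vale.Agent.P354TF
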