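import Vale.Agent.P354TF.Let

/-!
TRF: the transfer of the estimates far out to the final chart.
-/

open scoped ContDiff
open Set Filter Topology

noncomputable section

namespace Vale.Agent.P354TF

open Vale.Agent.P354n (R4)
open Vale.Agent.P354XE (Tw rd eT gin Lo wd vf Wb Nf ftt uw wt Far)
open Vale.Agent.P354XA (gin_Lo dr_T dq_eq met_bil rd_nonneg)
open Vale.Agent.P354XG Vale.Agent.P354XD Vale.Agent.P354XR Vale.Agent.P354XI
open Vale.Agent.P354Z Vale.Agent.P354CV Vale.Agent.P354YO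
open Vale.Agent.P354BO (q2_add)

variable {M a K d d' u u' : ℝ} {A B : ℝ → ℝ} {z : Fz} {x : E6} {n : ℕ} {F G : z.A} {g : R4 → ℝ}
  {Y Z : Der z.A} {V W : R4 → R4}

theorem wq_add (h : z.Wq M n x F d d') (h' : z.Wq M n x G d d') :
    z.Wq M n x (F + G) (2 * d) (2 * d') :=
  ⟨(q2_add _ _ n _ _).trans (by linarith [h.1, h'.1]), by
    rw [map_add]; exact (q2_add _ _ n _ _).trans (by linarith [h.2, h'.2])⟩

theorem wq_mono (h : z.Wq M n x F d d') (d0 : 0 ≤ d) (d1 : 0 ≤ d') (h1 : d ≤ u) (h2 : d' ≤ u') :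
    z.Wq M n x F u u' :=
  ⟨h.1.trans (pow_le_pow_left₀ d0 h1 2), h.2.trans (pow_le_pow_left₀ d1 h2 2)⟩

theorem l2 (K1 : 1 ≤ K) (u0 : 0 ≤ u) : 2 * (K * u) ≤ 2 * K ^ 2 * u := by
  nlinarith [mul_nonneg (mul_nonneg (zero_le_one.trans K1) (sub_nonneg.2 K1)) u0]
theorem l1 (K1 : 1 ≤ K) (u0 : 0 ≤ u) : K * u ≤ 2 * K ^ 2 * u := by
  linarith [l2 K1 u0, mul_nonneg (zero_le_one.trans K1) u0]
theorem l0 (K1 : 1 ≤ K) (u0 : 0 ≤ u) : u ≤ 2 * K ^ 2 * u :=
  (le_mul_of_one_le_left u0 K1).trans (l1 K1 u0)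
theorem l3 (u0 : 0 ≤ u) : K * (K * u) ≤ 2 * K ^ 2 * u := by
  nlinarith [mul_nonneg (sq_nonneg K) u0]

theorem Cx.ev {O : Set E6} (c : Cx O A B) (hx : x ∈ O) {P : R4 → Prop}
    (h : ∀ y ∈ O, P (sh A B (pj y))) : ∀ᶠ q in 𝓝 (sh A B (pj x)), P q := by
  have k := ev_pj c.co hx (P := fun p => P (sh A B p)) h
  nth_rw 1 [← sh_inv A B (pj x)] at k
  simpa only [sh_inv'] using (c.cd' hx).continuousAt.eventually k

variable (h : |a| < M) (hz : z.Is0 M) (ht : IsTh M M a A B)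
include hz

theorem z_sb : ∀ y ∈ z.O, Sb z.g (pj y) := fun y hy => by
  obtain ⟨D, h1, h2, h3, -⟩ := hz.vac y hy
  exact ⟨mem_of_superset (h1.mem_nhds h2) fun _ k => met_bil h3 k,
    fun v w => (h3.smooth v w).contDiffAt (h1.mem_nhds h2)⟩

theorem tan_T : z.T ((hp _).z 1) = 0 := ((cone_hp hz.co).dz 0 1).trans (by simp)

theorem tan_O (k : Fin 3) : Rz z B k ((hp _).z 1) = 0 := by
  simp [Rz, Fin.sum_univ_three, Fz.Om, (Om_z (cone_hp hz.co) _).2.1]

include h ht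

theorem z_gg (v : Vc A B Y V) (w : Vc A B Z W) :
    Rel A B (z.gg Y Z) fun q => P354XE.pb (sh (-A) (-B)) z.g q (V q) (W q) :=
  rel_gg (th_cx h ht hz.co) (z_sb hz) v w

theorem z_kt (v : Vc A B Y V) (w : Vc A B Z W) (y1 : Y ((hp _).z 1) = 0)
    (y2 : Z ((hp _).z 1) = 0) : Rel A B (z.gk M M a Y Z) fun q => gin M a q (V q) (W q) := by
  have := rel_tan (th_cx h ht hz.co) M a v w y1 y2
  rwa [gm2_gin hz.co, ← dot_tan (cone_hp hz.co) y1 y2 _ (pO z.O M M a).h1 0 fun _ _ _ => 0] at this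

theorem z_kr (w : Vc A B Z W) (y2 : Z ((hp _).z 1) = 0) :
    Rel A B (z.gk M M a (z.R M) Z) fun q => gin M a q (Lo M a q) (W q) := by
  have := rel_rad (th_cx h ht hz.co) (fun y hy => del_ne h (hz.rad y hy)) w y2
  rwa [gm2_gin hz.co, ← mul_neg,
    ← dot_rad (cone_hp hz.co) y2 _ (pO z.O M M a).h1 0 fun _ _ _ => 0] at this

theorem z_gauge (hx : x ∈ z.O) : ∀ᶠ q in 𝓝 (sh A B (pj x)),
    P354XE.pb (sh (-A) (-B)) z.g q (Lo M a q) (Lo M a q) = 0 ∧
      P354XE.pb (sh (-A) (-B)) z.g q (Lo M a q) eT = gin M a q (Lo M a q) eT := by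
  have c := th_cx h ht hz.co
  refine c.ev hx fun y hy => ?_
  have b1 := (z_gg h hz ht (vc_R h hz ht) (vc_R h hz ht) y hy).2
  have b2 := (z_gg h hz ht (Z := z.T) (vc_R h hz ht) (vc_T c) y hy).2
  rw [hz.RR, fv_zero] at b1
  rw [hz.RT, show fv (-1) y = _ from (evO ⟨y, hy⟩).map_neg _, map_one] at b2
  rw [gin_Lo (by rw [rd_sh]; exact c.ne hy) (by rw [rd_sh, c.rd hy]; exact del_ne h (hz.rad y hy))
    (dr_T _), dq_eq]
  exact ⟨by exact_mod_cast b1.symm, by simp [eT]; exact_mod_cast b2.symm⟩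

variable (hx : x ∈ z.O) (K1 : 1 ≤ K) (es : Es z M B x n K)
include hx K1 es

theorem z_fin (r : Rel A B F g) (w : z.Wq M n x F d d') (d0 : 0 ≤ d) (d1 : 0 ≤ d')
    (l : d ≤ 2 * K ^ 2 * u) (l' : d' ≤ 2 * K ^ 2 * u') :
    Wb M a n g (sh A B (pj x)) (2 * K ^ 3 * u) (2 * K ^ 3 * u') :=
  have K0 := zero_le_one.trans K1
  wb_mono (r.wb (th_cx h ht hz.co) (vc_Y h hz ht) hx (mul_nonneg K0 d0) (mul_nonneg K0 d1)
    (es.1 _ _ w.1) (es.1 _ _ w.2)) ((mul_le_mul_of_nonneg_left l K0).trans_eq (by ring))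
    ((mul_le_mul_of_nonneg_left l' K0).trans_eq (by ring))

theorem z_rot {k : Fin 3} {G : Fin 3 → z.A} (r : Rel A B F g) (e : F = ∑ j, Pz z B k j * G j)
    (w : ∀ j, z.Wq M n x (G j) d d') (d0 : 0 ≤ d) (d1 : 0 ≤ d') :
    Wb M a n g (sh A B (pj x)) (2 * K ^ 3 * d) (2 * K ^ 3 * d') :=
  have K0 := zero_le_one.trans K1
  z_fin h hz ht hx K1 es (e ▸ r) (es.2 _ _ _ d0 d1 w _).1 (mul_nonneg K0 d0) (mul_nonneg K0 d1)
    (l1 K1 d0) (l1 K1 d1)

theorem z_far {s δ e : ℝ} (hs : δ ≤ s) (e0 : 0 ≤ e) {β : Fin 3 → z.A} {f : Fin 3 → R4 → ℝ}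
    (hf : ∀ j, Rel A B (β j) (f j))
    (H : z.FarE M a n β x e (uw M a (sh A B (pj x)) ^ (-s)) (wt M a δ (sh A B (pj x)))) :
    Far M a s δ (2 * K ^ 3 * e) n (P354XE.pb (sh (-A) (-B)) z.g)
      (fun k q => ∑ j, Pr B k j q * f j q) (sh A B (pj x)) := by
  have c := th_cx h ht hz.co
  have K0 := zero_le_one.trans K1
  have rb : ∀ k, Rel A B (∑ j, Pz z B k j * β j) fun q => ∑ j, Pr B k j q * f j q :=
    fun k => Rel.sum fun j => (rel_P c k j).mul (hf j)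
  have vO : ∀ k, Vc A B (Rz z B k) (P354XE.Om k) := vc_Ro c
  have vR := vc_R h hz ht
  have vT : Vc A B z.T fun _ => eT := vc_T c
  have r0 := (hz.co.pos x hx).1
  have u1 : 1 ≤ uw M a (sh A B (pj x)) := Real.one_le_sqrt.2 (le_add_of_nonneg_right (sq_nonneg _))
  have ag : uw M a (sh A B (pj x)) ^ (-s) ≤ wt M a δ (sh A B (pj x)) :=
    (Real.rpow_le_rpow_of_exponent_le u1 (neg_le_neg hs)).trans
      (le_add_of_nonneg_right (Real.rpow_nonneg (rd_nonneg _) _))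
  have a0 : 0 ≤ uw M a (sh A B (pj x)) ^ (-s) := by positivity
  have er : rd (sh A B (pj x)) = x.2.1 := (rd_sh A B _).trans (c.rd hx)
  have vN : Vc A B (z.Nd β) (Nf fun k q => ∑ j, Pr B k j q * f j q) :=
    (vT.add (Vc.sum fun j => (vc_Om c j).smul (hf j))).congr fun q => by
      simp only [Nf, Finset.smul_sum, smul_smul, Finset.sum_smul, mul_comm (f _ q)]
      rw [Finset.sum_comm]
  have rt : Rel A B (z.ft M a β) (ftt M a _ _) :=
    (z_gg h hz ht vN vN).sub (z_kt h hz ht vT vT (tan_T hz) (tan_T hz))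
  have pa := mul_nonneg e0 a0
  have pg := mul_nonneg e0 (a0.trans ag)
  have pr := mul_nonneg e0 (mul_nonneg r0.le a0)
  refine ⟨z_gauge h hz ht hx, fun k => (rb k x hx).1, fun k => ?_, fun k => ⟨?_, ?_⟩, ?_,
    fun b hb => ?_, fun k => ?_, fun k l => ?_⟩
  · rw [mul_assoc _ e]
    exact z_rot (k := k) h hz ht hx K1 es ((z_gg h hz ht vR (vO k)).sub (z_kr h hz ht (vO k) (tan_O hz k)))
      (by simp only [Rz, Fz.gg, Fz.gk, dot_r]; simp only [Fin.sum_univ_three]; ring) H.la e0 pa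
  · rw [mul_assoc _ e]
    exact z_rot h hz ht hx K1 es (rb k) rfl (fun j => (H.shift j).1) pa pa
  · have w1 := (es.2 _ _ _ pg pg (fun j => (H.shift j).2) k).1
    have w2 := (es.2 β _ _ pg pg (fun j => wq_mono (H.shift j).1 pa pa
      (mul_le_mul_of_nonneg_left ag e0) (mul_le_mul_of_nonneg_left ag e0)) k).2
    have r := (rel_r c).mul ((rb k).der c (vc_Y h hz ht 1))
    rw [show (hp _).z 1 * Yz z M B 1 _ = ∑ j, Pz z B k j * (z.r * z.lr M 1 (β j)) +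
        ∑ j, z.r * z.lr M 1 (Pz z B k j) * β j by
      show z.r * z.lr M 1 _ = _
      simp only [map_add, D_mul, Fin.sum_univ_three]
      ring] at r
    rw [mul_assoc _ e]
    exact z_fin h hz ht hx K1 es r (wq_add w1 w2) (by positivity) (by positivity) (l2 K1 pg)
      (l2 K1 pg)
  · have p : 0 ≤ e * (1 + x.2.1 * uw M a (sh A B (pj x)) ^ (-s)) := by positivity
    rw [mul_assoc _ e, mul_assoc _ e, er]
    exact z_fin h hz ht hx K1 es rt H.tt p pr (l0 K1 p) (l0 K1 pr)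
  · have p := mul_nonneg e0 (add_nonneg (a0.trans ag) (mul_nonneg r0.le a0))
    have r := rt.der c (vc_Y h hz ht b)
    have k : ∀ k, Rz z B k (z.ft M a β) = ∑ j, Pz z B k j * z.lr M j.succ.succ (z.ft M a β) :=
      fun k => by
        simp only [lr_Om]
        simp [Rz, Fin.sum_univ_three]
    have w := fun j : Fin 3 => H.tt' j.succ.succ (Fin.succ_ne_zero _)
    rw [mul_assoc _ e, mul_assoc _ e, er]
    fin_cases b
    exacts [absurd rfl hb, z_fin h hz ht hx K1 es r (H.tt' 1 hb) p pr (l0 K1 p) (l0 K1 pr),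
      z_rot h hz ht hx K1 es r (k 0) w p pr, z_rot h hz ht hx K1 es r (k 1) w p pr,
      z_rot h hz ht hx K1 es r (k 2) w p pr]
  · rw [mul_assoc _ e, mul_assoc _ e]
    exact z_rot (k := k) h hz ht hx K1 es (((rel_ri c).mul ((z_gg h hz ht vN (vO k)).sub
      (z_kt h hz ht vT (vO k) (tan_T hz) (tan_O hz k)))).congr fun q => div_eq_inv_mul _ _)
      (by simp only [Rz, Fz.gg, Fz.gk, Fz.ri, dot_r]; simp only [Fin.sum_univ_three]; ring) H.ta pg
      pa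
  · have w := (es.2 _ _ _ (mul_nonneg K0 e0) (mul_nonneg K0 pa)
      (fun j => (es.2 _ _ _ e0 pa (H.aa j) l).1) k).1
    have r := (((rel_ri c).mul (rel_ri c)).mul ((z_gg h hz ht (vO k) (vO l)).sub
      (z_kt h hz ht (vO k) (vO l) (tan_O hz k) (tan_O hz l)))).congr
      (g := fun q => (P354XE.pb (sh (-A) (-B)) z.g q (P354XE.Om k q) (P354XE.Om l q) -
        gin M a q (P354XE.Om k q) (P354XE.Om l q)) / rd q ^ 2) fun q => by
        rw [div_eq_inv_mul, sq, mul_inv]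
    rw [show _ * (z.gg _ _ - _) = ∑ j, Pz z B k j * ∑ m, Pz z B l m * (z.ri * z.ri *
      (z.gg (z.Om j) (z.Om m) - z.gk M M a (z.Om j) (z.Om m))) by
        simp only [Rz, Fz.gg, Fz.gk, Fz.ri, dot_r, dot_l]; simp only [Fin.sum_univ_three]; ring] at r
    rw [mul_assoc _ e]
    exact z_fin h hz ht hx K1 es r w (by positivity) (by positivity) (l3 e0) (l3 pa)

omit h hz ht hx K1 es in
/-- **TRF** -/
theorem trf : TRF := by
  intro M a s δ N h hs
  obtain ⟨K, K1, hK⟩ := est_z h (N + 2)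
  refine ⟨2 * K ^ 3, fun z A B β hz ht hβ => ?_⟩
  have c := th_cx h ht hz.co
  choose f hf using fun i => rel_base c (hβ i)
  refine ⟨fun k q => ∑ j, Pr B k j q * f j q, fun x hx _ => ?_⟩
  have rb := fun k => Rel.sum fun j => (rel_P c k j).mul (hf j)
  have r0 := (hz.co.pos x hx).1
  refine ⟨fun k => (rb k x hx).1, fun e e0 => ⟨z_far h hz ht hx K1
    (hK z A B hz ht x hx N (by omega)) hs e0 hf, fun H k => ?_⟩⟩
  rw [mul_div_assoc, mul_div_assoc]
  exact z_rot h hz ht hx K1 (hK z A B hz ht x hx _ le_rfl) (rb k) rfl H (by positivity)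
    (by positivity)

end Vale.Agent.P354TF
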