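import Vale.Agent.P354TF.Geo
import Vale.Agent.P354TF.Desc
import Vale.Agent.P354BO.Q2

/-!
Functions and fields on the cone which correspond to functions and fields in the final chart.
-/

open scoped ContDiff
open Set Filter Topology

noncomputable section

namespace Vale.Agent.P354TF

open Vale.Agent.P354n (R4)
open Vale.Agent.P354RC (bs cv sum_bs)
open Vale.Agent.P354R (Del)
open Vale.Agent.P354XE (Tw rd dr eT gin Lo wd vf Wb)
open Vale.Agent.P354XA (rd_cd gin_Lo dr_eq ip dr_T dr_Om)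
open Vale.Agent.P354XG Vale.Agent.P354XD Vale.Agent.P354XR Vale.Agent.P354XI
open Vale.Agent.P354XG.Geo (dv dot hf two_hf)
open Vale.Agent.P354Z Vale.Agent.P354CV Vale.Agent.P354YO
open Vale.Agent.P354YK (gO gBo dot_gO)
open Vale.Agent.P354YI (at_fd)
open Vale.Agent.P354BO (fv_z q2_word q2_val q2_mono)

section alg
variable {A : Type} [CommRing A] [Algebra ℂ A] {K : Hp A} {Y Z : Der A}

theorem prj_om (h : K.Is) (Y : Der A) : ∑ a, K.prj Y a * K.om a = Y (K.z 1) := by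
  have p := h.prods.1
  have q := congrArg Y p
  have o : K.om 0 = 0 := rfl
  simp only [Fin.sum_univ_four, D_add, D_mul, D_one, o, Hp.prj, dv, Hp.co, Hp.D_e0] at p q ⊢
  simp only [Hp.e0, Matrix.cons_val]
  linear_combination Y (K.z 1) * p + K.z 1 * hf A * q - K.z 1 * (K.om 1 * Y (K.om 1) +
    K.om 2 * Y (K.om 2) + K.om 3 * Y (K.om 3)) * two_hf (A := A)

theorem tan_c (h : K.Is) (hY : Y (K.z 1) = 0) (p p' : Pm A) :
    ∑ a, K.prj Y a * c1 K p a = ∑ a, K.prj Y a * c1 K p' a ∧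
    ∑ a, K.prj Y a * c3 K p a = ∑ a, K.prj Y a * c3 K p' a ∧
    ∑ a, K.prj Y a * c4 K p a = ∑ a, K.prj Y a * c4 K p' a := by
  have e := (prj_om h Y).trans hY
  simp only [c1, c3, c4, Fin.sum_univ_four] at e ⊢
  refine ⟨?_, ?_, ?_⟩
  · linear_combination (p.h1 - p'.h1) * e
  · linear_combination (p.j1 - p'.j1) * (ii A * K.kc.s) * e
  · linear_combination (p'.j1 - p.j1) * (ii A * K.kc.sb) * e

theorem dot_tan (h : K.Is) (hY : Y (K.z 1) = 0) (hZ : Z (K.z 1) = 0) (p : Pm A) (u j : A)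
    (Γ Γ' : Fin 4 → Fin 4 → Fin 4 → A) :
    (K.geo (gO K { p with h1 := u, j1 := j }) Γ).dot (K.prj Y) (K.prj Z) =
      (K.geo (gK K p) Γ').dot (K.prj Y) (K.prj Z) := by
  obtain ⟨a1, a2, a3⟩ := tan_c h hY { p with h1 := u, j1 := j } p
  obtain ⟨b1, b2, b3⟩ := tan_c h hZ { p with h1 := u, j1 := j } p
  rw [dot_gO, dot_gK, a1, a2, a3, b1, b2, b3, prj_om h, prj_om h, hY, hZ]
  simp only [gBo, KC.gB, KC.qf, kk]
  ring

theorem R_V (K : KC A) : K.R = K.V 0 1 0 0 0 0 := by ext f; simp [KC.V_ap]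

theorem dot_rad (h : K.Is) (hZ : Z (K.z 1) = 0) (p : Pm A) (u j : A)
    (Γ Γ' : Fin 4 → Fin 4 → Fin 4 → A) :
    (K.geo (gO K { p with h1 := u, j1 := j }) Γ).dot
      (K.prj (kk K { p with h1 := u, j1 := j }).R) (K.prj Z) =
      -(K.geo (gK K p) Γ').dot (K.prj (kk K p).R) (K.prj Z) := by
  obtain ⟨b1, b2, b3⟩ := tan_c h hZ { p with h1 := u, j1 := j } p
  rw [dot_gO, dot_gK, b1, b2, b3, prj_om h Z, hZ, R_V, R_V (kk K p)]
  simp only [prj_c h]
  simp only [gBo, KC.gB, KC.qf, kk]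
  ring

theorem prj_R (h : K.Is) {p : Pm A} (hj : p.j1 = 0) (a : Fin 4) :
    K.prj (kk K p).R a = -p.h1 * Hp.e0 A a + K.om a := by
  rw [R_V, kk_V, h.prj_V, hj]
  ring

theorem prj_T (h : K.Is) (a : Fin 4) : K.prj (K.d 0) a = Hp.e0 A a := by
  have := h.prj_V 1 0 0 0 0 0 a
  simpa [KC.V, Hp.kc] using this

theorem prj_Om (h : K.Is) (j : Fin 3) : K.prj (Om K j) =
    ![![0, 0, -K.co 3, K.co 2], ![0, K.co 3, 0, -K.co 1], ![0, -K.co 2, K.co 1, 0]] j := by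
  obtain ⟨z0, z1, -⟩ := Om_z h j
  obtain ⟨e0, e1, e2⟩ := Om_ww h j
  have o : K.om 0 = 0 := rfl
  funext a
  simp only [Hp.prj, dv, Hp.co, D_add, D_mul, Hp.D_e0, z0, z1]
  fin_cases j <;> fin_cases a <;> simp [ww, o, Hp.e0] at e0 e1 e2 ⊢ <;> simp [e0, e1, e2]

theorem spn_Om (h : K.Is) (j : Fin 3) : Spn K (Om K j) := by
  rw [Om_V h]; exact spn_kc h _ _ _ _ _ _

end alg

variable {O : Set E6} {A B : ℝ → ℝ} {y : E6} {F G : Sm (on O)} {f g : R4 → ℝ}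
  {Y Z : Der (Sm (on O))} {V W : R4 → R4} {v w : R4} {M a : ℝ}

/-- The components of the projection of Y at y are those of v. -/
def Cp (Y : Der (Sm (on O))) (y : E6) (v : R4) : Prop := ∀ b, fv ((hp _).prj Y b) y = cv b v

theorem fv_e0 (hy : y ∈ O) (b : Fin 4) : fv (Hp.e0 (Sm (on O)) b) y = cv b eT := by
  have e : fv (1 : Sm (on O)) y = 1 := (evO ⟨y, hy⟩).map_one
  fin_cases b <;> simp [Hp.e0, cv, eT, fv_zero, e]

theorem fv_om (c : Cone O) (hy : y ∈ O) (b : Fin 4) : fv ((hp (on O)).om b) y = cv b (nv (pj y)) := by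
  rw [fv_rs (rs_om (cone_pos c).off b) hy, nv, rd_pj (c.pos y hy).1 (c.pos y hy).2]
  fin_cases b <;> simp [oc, cv, div_eq_inv_mul]

theorem cp_T (c : Cone O) (hy : y ∈ O) : Cp ((hp (on O)).d 0) y eT := fun b => by
  rw [prj_T (cone_hp c), fv_e0 hy]

theorem cp_R (c : Cone O) (hy : y ∈ O) {p : Pm (Sm (on O))} (hj : p.j1 = 0) {m : ℝ}
    (hm : fv (-p.h1) y = m) : Cp (kk (hp (on O)) p).R y (m • eT + nv (pj y)) := fun b => by
  rw [prj_R (cone_hp c) hj, fv_add, fv_mul, hm, fv_e0 hy, fv_om c hy]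
  simp

theorem cp_Om (c : Cone O) (hy : y ∈ O) (j : Fin 3) :
    Cp (Om (hp (on O)) j) y (P354XE.Om j (pj y)) := fun b => by
  have e := fun b => fv_rs (rs_co (cone_pos c).off b) hy
  have n : ∀ u : Sm (on O), fv (-u) y = -fv u y := (evO ⟨y, hy⟩).map_neg
  rw [prj_Om (cone_hp c)]
  fin_cases j <;> fin_cases b <;> simp [n, e, fv_zero, cv, P354XE.Om]

theorem Cp.dr (c : Cone O) (hy : y ∈ O) (h : Cp Y y v) (e : Y ((hp _).z 1) = 0) :
    dr (pj y) v = 0 := by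
  have k := congrArg (fv · y) ((prj_om (cone_hp c) Y).trans e)
  simp only [Fin.sum_univ_four, fv_add, fv_mul, h _, fv_om c hy, fv_zero] at k
  rw [dr_eq, div_eq_inv_mul]
  norm_cast at k
  simp [cv, nv] at k
  rw [ip]
  linear_combination k

/-- The metric on two fields. -/
def gm2 (g : Tw) (Y Z : Der (Sm (on O))) : Sm (on O) :=
  2 * (ge O g).dot ((hp _).prj Y) ((hp _).prj Z)

theorem fv_gm2 (c : Cone O) {g : Tw} (hg : ∀ y ∈ O, Sb g (pj y)) (hy : y ∈ O) (h : Cp Y y v)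
    (h' : Cp Z y w) : fv (gm2 g Y Z) y = g (pj y) v w := by
  have e : ∀ b d, fv (pb (on O) fun _ => gc g b d) y = gc g b d (pj y) := fun b d =>
    fv_rs (rs_pb (cone_pos c).off (on_of c.op fun x hx => (hg x hx).sm _ _)) hy
  have t : fv (2 : Sm (on O)) y = 2 := map_ofNat (evO ⟨y, hy⟩) 2
  rw [← tb_ap (hg y hy).bl.self_of_nhds]
  simp only [gm2, dot, ge, geo, Hp.geo, Fin.sum_univ_four, fv_add, fv_mul, h _, h' _, e, t,
    fv_alg _ hy, tb, gc]
  simp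
  ring

theorem gm2_gin (c : Cone O) (M a : ℝ) (Y Z : Der (Sm (on O))) : gm2 (gin M a) Y Z =
    2 * ((hp _).geo (gK (hp _) (pm (on O) (fun _ => M) fun _ => a)) fun _ _ _ => 0).dot
      ((hp _).prj Y) ((hp _).prj Z) := by
  simp only [gm2, dot, ge, gin_eq (cone_pos c) (fun _ => M) fun _ => a]
  rfl

variable (O A B) in
/-- The cone and the map. -/
structure Cx : Prop where
  co : Cone O
  sA : ContDiff ℝ ∞ A
  sB : ContDiff ℝ ∞ B

variable (A B) in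
/-- F is the pull back of f. -/
def Rel (F : Sm (on O)) (f : R4 → ℝ) : Prop :=
  ∀ y ∈ O, ContDiffAt ℝ ∞ f (sh A B (pj y)) ∧ fv F y = f (sh A B (pj y))

variable (A B) in
/-- Y is mapped to V. -/
structure Vc (Y : Der (Sm (on O))) (V : R4 → R4) : Prop where
  sp : Spn (hp _) Y
  ex : ∀ y ∈ O, ContDiffAt ℝ ∞ V (sh A B (pj y)) ∧
    ∃ v, Cp Y y v ∧ fderiv ℝ (sh A B) (pj y) v = V (sh A B (pj y))

theorem Cx.rd (c : Cx O A B) (hy : y ∈ O) : rd (pj y) = y.2.1 :=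
  rd_pj (c.co.pos y hy).1 (c.co.pos y hy).2

theorem Cx.ne (c : Cx O A B) (hy : y ∈ O) : P354XE.rd (pj y) ≠ 0 :=
  (c.rd hy).trans_ne (c.co.pos y hy).1.ne'

theorem Cx.cd (c : Cx O A B) (hy : y ∈ O) : ContDiffAt ℝ ∞ (sh A B) (pj y) :=
  sh_cd (c.ne hy) c.sA.contDiffAt c.sB.contDiffAt

theorem Cx.cd' (c : Cx O A B) (hy : y ∈ O) : ContDiffAt ℝ ∞ (sh (-A) (-B)) (sh A B (pj y)) :=
  sh_cd (by rw [rd_sh]; exact c.ne hy) c.sA.neg.contDiffAt c.sB.neg.contDiffAt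

theorem Cx.tan (c : Cx O A B) (hy : y ∈ O) (h : dr (pj y) v = 0) :
    fderiv ℝ (sh A B) (pj y) v = rot (B (P354XE.rd (pj y))) v := by
  rw [sh_fd (c.ne hy) (c.sA.differentiable (by simp) _).hasDerivAt
    (c.sB.differentiable (by simp) _).hasDerivAt, h, zero_smul, add_zero]

theorem Rel.congr (h : Rel A B F f) (e : ∀ q, g q = f q) : Rel A B F g := funext e ▸ h

theorem Rel.add (h : Rel A B F f) (h' : Rel A B G g) : Rel A B (F + G) fun q => f q + g q :=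
  fun y hy => ⟨(h y hy).1.add (h' y hy).1, by rw [fv_add, (h y hy).2, (h' y hy).2]; simp⟩

theorem Rel.mul (h : Rel A B F f) (h' : Rel A B G g) : Rel A B (F * G) fun q => f q * g q :=
  fun y hy => ⟨(h y hy).1.mul (h' y hy).1, by rw [fv_mul, (h y hy).2, (h' y hy).2]; simp⟩

theorem Rel.neg (h : Rel A B F f) : Rel A B (-F) fun q => -f q := fun y hy =>
  ⟨(h y hy).1.neg, ((evO ⟨y, hy⟩).map_neg F).trans (by
    rw [show evO ⟨y, hy⟩ F = _ from (h y hy).2]; simp)⟩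

theorem Rel.sub (h : Rel A B F f) (h' : Rel A B G g) : Rel A B (F - G) fun q => f q - g q := by
  simpa only [sub_eq_add_neg] using h.add h'.neg

theorem rel_zero : Rel A B (0 : Sm (on O)) fun _ => 0 :=
  fun y _ => ⟨contDiffAt_const, by simp [fv_zero]⟩

theorem rel_one : Rel A B (1 : Sm (on O)) fun _ => 1 :=
  fun y hy => ⟨contDiffAt_const, (evO ⟨y, hy⟩).map_one⟩

theorem rel_rf (c : Cx O A B) {φ : ℝ → ℝ} (h : ContDiff ℝ ∞ φ) :
    Rel A B (rf O φ) fun q => φ (rd q) := fun y hy =>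
  ⟨h.contDiffAt.comp _ (rd_cd (by rw [rd_sh]; exact c.ne hy)), by
    simp only [fv_rf c.co h.contDiffOn hy, rd_sh, c.rd hy]⟩

theorem rel_r (c : Cx O A B) : Rel A B ((hp (on O)).z 1) rd := fun y hy =>
  ⟨rd_cd (by rw [rd_sh]; exact c.ne hy), by rw [fv_z _ hy, rd_sh, c.rd hy]; rfl⟩

theorem rel_ri (c : Cx O A B) : Rel A B (hp (on O)).ri fun q => (rd q)⁻¹ := fun y hy =>
  ⟨(rel_r c y hy).1.inv (by rw [rd_sh]; exact c.ne hy), by
    simp [fv_rs (rs_ri (cone_pos c.co).off) hy, rd_sh, c.rd hy, zc]⟩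

theorem rel_base (c : Cx O A B) (h : Base F) : ∃ f, Rel A B F f := by
  obtain ⟨g, hg⟩ := descent c.co h
  refine ⟨g ∘ sh (-A) (-B), fun y hy => ⟨ContDiffAt.comp _ ?_ (c.cd' hy), ?_⟩⟩
  · rw [sh_inv]; exact (hg y hy).1
  · rw [(hg y hy).2, Function.comp_apply, sh_inv]

/-- The chain rule. -/
theorem Rel.der (c : Cx O A B) (h : Rel A B F f) (k : Vc A B Y V) :
    Rel A B (Y F) fun q => fderiv ℝ f q (V q) := fun y hy => by
  have o := (cone_pos c.co).off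
  have s : SmB (on O) fun _ => f ∘ sh A B := on_of c.co.op fun x hx => (h x hx).1.comp _ (c.cd hx)
  have e : F = pb (on O) fun _ => f ∘ sh A B :=
    ext_fv c.co.op fun x hx => (h x hx).2.trans (fv_rs (rs_pb o s) hx).symm
  have e2 : Y F = ∑ b, pb (on O) (fun _ => db b (f ∘ sh A B)) * (hp _).prj Y b := by
    rw [k.sp F, e]
    simp only [d_pb o s, Hp.prj, dv, k.sp ((hp _).co _), Finset.mul_sum]
    rw [Finset.sum_comm]
    exact Finset.sum_congr rfl fun _ _ => Finset.sum_congr rfl fun _ _ => by ring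
  obtain ⟨sV, v, h1, h2⟩ := k.ex y hy
  refine ⟨(at_fd (h y hy).1).clm_apply sV, ?_⟩
  have e3 := fun b => fv_rs (rs_pb o (s.db b)) hy
  beta_reduce
  rw [e2, ← h2, ← ContinuousLinearMap.comp_apply, ← fderiv_comp _
    ((h y hy).1.differentiableAt (by simp)) ((c.cd hy).differentiableAt (by simp)), ← sum_bs v]
  simp only [Fin.sum_univ_four, fv_add, fv_mul, h1 _, e3, db, map_add, map_smul, smul_eq_mul]
  push_cast
  ring

theorem Vc.congr (h : Vc A B Y V) (e : ∀ q, W q = V q) : Vc A B Y W := funext e ▸ h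

theorem Vc.add (h : Vc A B Y V) (h' : Vc A B Z W) : Vc A B (Y + Z) fun q => V q + W q :=
  ⟨h.sp.add h'.sp, fun y hy => by
    obtain ⟨s, v, a1, a2⟩ := h.ex y hy
    obtain ⟨s', w, b1, b2⟩ := h'.ex y hy
    refine ⟨s.add s', v + w, fun b => ?_, by rw [map_add, a2, b2]⟩
    rw [map_add, Complex.ofReal_add, ← a1, ← b1, ← fv_add]
    rfl⟩

theorem Vc.smul (k : Rel A B F f) (h : Vc A B Y V) : Vc A B (F • Y) fun q => f q • V q :=
  ⟨h.sp.smul _, fun y hy => by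
    obtain ⟨s, v, a1, a2⟩ := h.ex y hy
    refine ⟨(k y hy).1.smul s, f (sh A B (pj y)) • v, fun b => ?_, by rw [map_smul, a2]⟩
    rw [map_smul, smul_eq_mul, Complex.ofReal_mul, ← a1, ← (k y hy).2, ← fv_mul]
    rfl⟩

theorem vc_T (c : Cx O A B) : Vc A B ((hp (on O)).d 0) fun _ => eT :=
  ⟨spn_d (cone_hp c.co) 0, fun y hy => ⟨contDiffAt_const, eT, cp_T c.co hy, by
    rw [c.tan hy (dr_T _)]; simp [rot, eT]⟩⟩

theorem rel_gg (c : Cx O A B) {g : Tw} (hg : ∀ y ∈ O, Sb g (pj y)) (h : Vc A B Y V)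
    (h' : Vc A B Z W) :
    Rel A B (gm2 g Y Z) fun q => P354XE.pb (sh (-A) (-B)) g q (V q) (W q) := fun y hy => by
  obtain ⟨s, v, a1, a2⟩ := h.ex y hy
  obtain ⟨s', w, b1, b2⟩ := h'.ex y hy
  refine ⟨sb_ap (Sb.pull (by rw [sh_inv]; exact hg y hy) (c.cd' hy)) s s', ?_⟩
  simp only [fv_gm2 c.co hg hy a1 b1, P354XE.pb, ← a2, ← b2, fd_inv (c.ne hy) c.sA c.sB, sh_inv]

theorem Cx.gin (c : Cx O A B) (M a : ℝ) : ∀ y ∈ O, Sb (gin M a) (pj y) :=
  fun y hy => sb_gin ((c.co.pos y hy).1.trans_eq (c.rd hy).symm)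

theorem Cx.gin' (c : Cx O A B) (M a : ℝ) (hy : y ∈ O) : Sb (P354XE.gin M a) (sh A B (pj y)) :=
  sb_gin (((c.co.pos y hy).1.trans_eq (c.rd hy).symm).trans_eq (rd_sh A B _).symm)

theorem rel_tan (c : Cx O A B) (M a : ℝ) (h : Vc A B Y V) (h' : Vc A B Z W)
    (hY : Y ((hp _).z 1) = 0) (hZ : Z ((hp _).z 1) = 0) :
    Rel A B (gm2 (gin M a) Y Z) fun q => gin M a q (V q) (W q) := fun y hy => by
  obtain ⟨s, v, a1, a2⟩ := h.ex y hy
  obtain ⟨s', w, b1, b2⟩ := h'.ex y hy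
  refine ⟨sb_ap (c.gin' M a hy) s s', ?_⟩
  simp only [fv_gm2 c.co (c.gin M a) hy a1 b1, ← a2, ← b2, c.tan hy (a1.dr c.co hy hY),
    c.tan hy (b1.dr c.co hy hZ), gin_sh]

theorem rel_rad (c : Cx O A B) (hD : ∀ y ∈ O, Del M a y.2.1 ≠ 0) (h' : Vc A B Z W)
    (hZ : Z ((hp _).z 1) = 0) :
    Rel A B (-gm2 (gin M a) (kk (hp _) (pm (on O) (fun _ => M) fun _ => a)).R Z)
      fun q => gin M a q (Lo M a q) (W q) := fun y hy => by
  obtain ⟨s', w, b1, b2⟩ := h'.ex y hy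
  have n : ∀ u : Sm (on O), fv (-u) y = -fv u y := (evO ⟨y, hy⟩).map_neg
  have r : rd (sh A B (pj y)) ≠ 0 := by rw [rd_sh]; exact c.ne hy
  have D : Del M a (rd (sh A B (pj y))) ≠ 0 := by rw [rd_sh, c.rd hy]; exact hD y hy
  have t := b1.dr c.co hy hZ
  refine ⟨sb_ap (c.gin' M a hy) (Lo_cd r D) s', ?_⟩
  have a1 := cp_R c.co hy (p := pm (on O) (fun _ => M) fun _ => a) (m := -1) rfl
    ((n 1).trans (by rw [show fv 1 y = 1 from (evO ⟨y, hy⟩).map_one]; simp))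
  simp only [n, fv_gm2 c.co (c.gin M a) hy a1 b1, ← b2, c.tan hy t, gin_nv (c.ne hy) t]
  rw [gin_Lo r D ((dr_sh A B _ _).trans t), dq_sh]
  simp [rot]
  ring

/-- The words. -/
theorem Rel.wb (c : Cx O A B) {X : Fin 5 → Der (Sm (on O))} (hX : ∀ i, Vc A B (X i) (vf M a i))
    (h : Rel A B F f) (hy : y ∈ O) {N : ℕ} {d d' : ℝ} (d0 : 0 ≤ d) (d1 : 0 ≤ d')
    (h1 : q2 X y N F ≤ d ^ 2) (h2 : q2 X y N (X 0 F) ≤ d' ^ 2) :
    Wb M a N f (sh A B (pj y)) d d' := by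
  have k : ∀ {F f d}, Rel A B F f → 0 ≤ d → q2 X y N F ≤ d ^ 2 → ∀ α : List (Fin 5), α.length ≤ N →
      |wd M a α f (sh A B (pj y))| ≤ d := fun {F f d} h d0 h1 α hα => by
    have r : Rel A B (α.foldr (fun a u => X a u) F) (wd M a α f) := by
      clear hα
      induction α with
      | nil => exact h
      | cons i α ih => exact ih.der c (hX i)
    have := ((q2_val X y 0 _).trans (q2_word X y α 0 F)).trans
      ((q2_mono X y (by simpa using hα) F).trans h1)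
    rw [(r y hy).2, Complex.norm_real] at this
    exact le_of_sq_le_sq this d0
  exact fun α hα => ⟨k h d0 h1 α hα, k (h.der c (hX 0)) d1 h2 α hα⟩

end Vale.Agent.P354TF
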